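import Vale.Agent.P033.Defs

namespace Vale.Agent.P033

variable {n : ℕ} [NeZero n] {h : ZMod n → ℝ}

theorem IsCirculantHadamardRow.sq (hh : IsCirculantHadamardRow n h) (j : ZMod n) :
    h j * h j = 1 := by
  rcases hh.1 j with e | e <;> rw [e] <;> norm_num

/-- periodic autocorrelations vanish -/
theorem IsCirculantHadamardRow.autocorr (hh : IsCirculantHadamardRow n h) (t : ZMod n)
    (ht : t ≠ 0) : ∑ j, h j * h (j + t) = 0 := by
  have h2 := congrFun (congrFun hh.2 0) (-t)
  simp only [Matrix.mul_apply, Matrix.of_apply, Matrix.transpose_apply, Matrix.smul_apply,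
    Matrix.one_apply, sub_zero, sub_neg_eq_add, smul_eq_mul] at h2
  rw [if_neg (by intro e; apply ht; have := congrArg Neg.neg e; simpa using this.symm)] at h2
  simpa using h2

theorem sum_shift (f : ZMod n → ℝ) (s : ZMod n) : ∑ j, f (j + s) = ∑ j, f j :=
  Fintype.sum_equiv (Equiv.addRight s) _ _ (fun _ => rfl)

end Vale.Agent.P033
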