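import Vale.Agent.P033.Basic

namespace Vale.Agent.P033

variable {n : ℕ} [NeZero n] {h : ZMod n → ℝ}

theorem natCast_ne_zero_of_lt {k : ℕ} (hk0 : k ≠ 0) (hk : k < n) : (k : ZMod n) ≠ 0 := by
  intro e
  rw [ZMod.natCast_eq_zero_iff] at e
  exact absurd (Nat.le_of_dvd (Nat.pos_of_ne_zero hk0) e) (by omega)

theorem IsCirculantHadamardRow.autocorr2 (hh : IsCirculantHadamardRow n h) (s t : ZMod n)
    (hst : s ≠ t) : ∑ j, h (j + s) * h (j + t) = 0 := by
  have h1 := hh.autocorr (t - s) (sub_ne_zero.mpr (Ne.symm hst))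
  rw [← sum_shift (fun j => h j * h (j + (t - s))) s] at h1
  rw [← h1]
  apply Finset.sum_congr rfl
  intro j _
  congr 2
  ring

theorem ind_eq {x a : ℝ} (hx : x = 1 ∨ x = -1) (ha : a = 1 ∨ a = -1) :
    (if x = a then (1:ℝ) else 0) = (1 + a * x) / 2 := by
  rcases hx with rfl | rfl <;> rcases ha with rfl | rfl <;> norm_num

theorem pm_mul {x y : ℝ} (hx : x = 1 ∨ x = -1) (hy : y = 1 ∨ y = -1) :
    x * y = 1 ∨ x * y = -1 := by
  rcases hx with rfl | rfl <;> rcases hy with rfl | rfl <;> norm_num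

theorem pattern_count (hn : 4 < n) (hh : IsCirculantHadamardRow n h) (a b c : ℝ)
    (ha : a = 1 ∨ a = -1) (hb : b = 1 ∨ b = -1) (hc : c = 1 ∨ c = -1) :
    8 * ((Finset.univ.filter fun j : ZMod n =>
      h j * h (j + 1) = a ∧ h (j + 1) * h (j + 2) = b ∧ h (j + 2) * h (j + 3) = c).card : ℝ)
      = n + a * c * ∑ j, h j * h (j + 1) * h (j + 2) * h (j + 3) := by
  classical
  have n1 : (1 : ZMod n) ≠ 0 := by
    have := natCast_ne_zero_of_lt (n := n) (k := 1) (by norm_num) (by omega); simpa using this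
  have n2 : (2 : ZMod n) ≠ 0 := by
    have := natCast_ne_zero_of_lt (n := n) (k := 2) (by norm_num) (by omega); simpa using this
  have n3 : (3 : ZMod n) ≠ 0 := by
    have := natCast_ne_zero_of_lt (n := n) (k := 3) (by norm_num) (by omega); simpa using this
  have e12 : (1 : ZMod n) ≠ 2 := by
    intro e; apply n1; have : (2 : ZMod n) - 1 = 0 := by rw [← e]; ring
    have h2 : (2 : ZMod n) - 1 = 1 := by ring
    rw [h2] at this; exact this
  have e13 : (1 : ZMod n) ≠ 3 := by
    intro e; apply n2; have : (3 : ZMod n) - 1 = 0 := by rw [← e]; ring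
    have h2 : (3 : ZMod n) - 1 = 2 := by ring
    rw [h2] at this; exact this
  have e23 : (2 : ZMod n) ≠ 3 := by
    intro e; apply n1; have : (3 : ZMod n) - 2 = 0 := by rw [← e]; ring
    have h2 : (3 : ZMod n) - 2 = 1 := by ring
    rw [h2] at this; exact this
  have s01 : ∑ j, h j * h (j + 1) = 0 := hh.autocorr 1 n1
  have s02 : ∑ j, h j * h (j + 2) = 0 := hh.autocorr 2 n2
  have s03 : ∑ j, h j * h (j + 3) = 0 := hh.autocorr 3 n3
  have s12 : ∑ j, h (j + 1) * h (j + 2) = 0 := hh.autocorr2 1 2 e12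
  have s13 : ∑ j, h (j + 1) * h (j + 3) = 0 := hh.autocorr2 1 3 e13
  have s23 : ∑ j, h (j + 2) * h (j + 3) = 0 := hh.autocorr2 2 3 e23
  have hcard : ((Finset.univ.filter fun j : ZMod n =>
      h j * h (j + 1) = a ∧ h (j + 1) * h (j + 2) = b ∧ h (j + 2) * h (j + 3) = c).card : ℝ)
      = ∑ j : ZMod n, (1 + a * (h j * h (j + 1))) / 2 * ((1 + b * (h (j + 1) * h (j + 2))) / 2)
          * ((1 + c * (h (j + 2) * h (j + 3))) / 2) := by
    rw [Finset.card_filter]
    push_cast
    apply Finset.sum_congr rfl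
    intro j _
    rw [← ind_eq (pm_mul (hh.1 j) (hh.1 (j+1))) ha, ← ind_eq (pm_mul (hh.1 (j+1)) (hh.1 (j+2))) hb,
      ← ind_eq (pm_mul (hh.1 (j+2)) (hh.1 (j+3))) hc]
    by_cases p1 : h j * h (j + 1) = a <;> by_cases p2 : h (j + 1) * h (j + 2) = b <;>
      by_cases p3 : h (j + 2) * h (j + 3) = c <;> simp [p1, p2, p3]
  rw [hcard, Finset.mul_sum]
  have hterm : ∀ j : ZMod n, 8 * ((1 + a * (h j * h (j + 1))) / 2 *
      ((1 + b * (h (j + 1) * h (j + 2))) / 2) * ((1 + c * (h (j + 2) * h (j + 3))) / 2))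
      = 1 + a * (h j * h (j + 1)) + b * (h (j + 1) * h (j + 2)) + c * (h (j + 2) * h (j + 3))
        + a * b * (h j * h (j + 2)) + b * c * (h (j + 1) * h (j + 3))
        + a * c * (h j * h (j + 1) * h (j + 2) * h (j + 3)) + a * b * c * (h j * h (j + 3)) := by
    intro j
    have q1 := hh.sq (j + 1)
    have q2 := hh.sq (j + 2)
    have : 8 * ((1 + a * (h j * h (j + 1))) / 2 *
      ((1 + b * (h (j + 1) * h (j + 2))) / 2) * ((1 + c * (h (j + 2) * h (j + 3))) / 2))
      = 1 + a * (h j * h (j + 1)) + b * (h (j + 1) * h (j + 2)) + c * (h (j + 2) * h (j + 3))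
        + a * b * (h j * h (j + 2)) * (h (j + 1) * h (j + 1))
        + b * c * (h (j + 1) * h (j + 3)) * (h (j + 2) * h (j + 2))
        + a * c * (h j * h (j + 1) * h (j + 2) * h (j + 3))
        + a * b * c * (h j * h (j + 3)) * (h (j + 1) * h (j + 1)) * (h (j + 2) * h (j + 2)) := by
      ring
    rw [this, q1, q2]; ring
  simp_rw [hterm]
  simp only [Finset.sum_add_distrib, ← Finset.mul_sum, s01, s02, s03, s12, s13, s23]
  simp [ZMod.card]

theorem quad_bound (hn : 4 < n) (hh : IsCirculantHadamardRow n h) :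
    2 * |∑ j, h j * h (j + 1) * h (j + 2) * h (j + 3)| ≤ n := by
  have n4 : (4 : ZMod n) ≠ 0 := by
    have := natCast_ne_zero_of_lt (n := n) (k := 4) (by norm_num) (by omega); simpa using this
  set q : ZMod n → ℝ := fun j => h j * h (j + 1) * h (j + 2) * h (j + 3) with hq
  have hqpm : ∀ j, q j = 1 ∨ q j = -1 := fun j =>
    pm_mul (pm_mul (pm_mul (hh.1 j) (hh.1 _)) (hh.1 _)) (hh.1 _)
  have hqq : ∀ j, q j * q (j + 1) = h j * h (j + 4) := by
    intro j
    have q1 := hh.sq (j + 1)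
    have q2 := hh.sq (j + 2)
    have q3 := hh.sq (j + 3)
    have e1 : j + 1 + 1 = j + 2 := by ring
    have e2 : j + 1 + 2 = j + 3 := by ring
    have e3 : j + 1 + 3 = j + 4 := by ring
    simp only [hq, e1, e2, e3]
    calc h j * h (j + 1) * h (j + 2) * h (j + 3) * (h (j + 1) * h (j + 2) * h (j + 3) * h (j + 4))
        = h j * h (j + 4) * (h (j + 1) * h (j + 1)) * (h (j + 2) * h (j + 2))
            * (h (j + 3) * h (j + 3)) := by ring
      _ = h j * h (j + 4) := by rw [q1, q2, q3]; ring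
  have habs : ∀ j, |q j + q (j + 1)| = 1 + q j * q (j + 1) := by
    intro j
    rcases hqpm j with e | e <;> rcases hqpm (j + 1) with e' | e' <;> rw [e, e'] <;> norm_num
  have hsum : ∑ j, (q j + q (j + 1)) = 2 * ∑ j, q j := by
    rw [Finset.sum_add_distrib, sum_shift q 1]; ring
  calc 2 * |∑ j, q j| = |2 * ∑ j, q j| := by rw [abs_mul]; norm_num
    _ = |∑ j, (q j + q (j + 1))| := by rw [hsum]
    _ ≤ ∑ j, |q j + q (j + 1)| := Finset.abs_sum_le_sum_abs _ _
    _ = ∑ j, (1 + h j * h (j + 4)) := by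
        apply Finset.sum_congr rfl; intro j _; rw [habs, hqq]
    _ = n := by
        rw [Finset.sum_add_distrib, hh.autocorr 4 n4]; simp [ZMod.card]

theorem rectangle_bound (hh : IsCirculantHadamardRow n h) (A S : Finset (ZMod n)) (σ : ℝ)
    (hσ : ∀ a ∈ A, ∀ s ∈ S, h (a + s) = σ) : A.card * S.card ≤ n := by
  classical
  rcases S.eq_empty_or_nonempty with rfl | hS
  · simp
  rcases A.eq_empty_or_nonempty with rfl | hA
  · simp
  obtain ⟨s0, hs0⟩ := hS
  obtain ⟨a0, ha0⟩ := hA
  have hσ2 : σ * σ = 1 := by rw [← hσ a0 ha0 s0 hs0]; exact hh.sq _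
  have htotal : ∑ a : ZMod n, (∑ s ∈ S, h (a + s)) ^ 2 = n * S.card := by
    have : ∀ a : ZMod n, (∑ s ∈ S, h (a + s)) ^ 2 = ∑ s ∈ S, ∑ s' ∈ S, h (a + s) * h (a + s') := by
      intro a; rw [sq, Finset.sum_mul_sum]
    simp_rw [this]
    rw [Finset.sum_comm]
    have : ∀ s ∈ S, ∑ a : ZMod n, ∑ s' ∈ S, h (a + s) * h (a + s') = n := by
      intro s hs
      rw [Finset.sum_comm]
      rw [Finset.sum_eq_single_of_mem s hs]
      · simp_rw [hh.sq]; simp [ZMod.card]
      · intro s' _ hne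
        exact hh.autocorr2 s s' (Ne.symm hne)
    rw [Finset.sum_congr rfl this]
    simp [mul_comm]
  have hpart : ∑ a ∈ A, (∑ s ∈ S, h (a + s)) ^ 2 ≤ ∑ a : ZMod n, (∑ s ∈ S, h (a + s)) ^ 2 :=
    Finset.sum_le_sum_of_subset_of_nonneg (Finset.subset_univ _) (fun _ _ _ => sq_nonneg _)
  have hA' : ∑ a ∈ A, (∑ s ∈ S, h (a + s)) ^ 2 = A.card * (S.card * S.card) := by
    have : ∀ a ∈ A, (∑ s ∈ S, h (a + s)) ^ 2 = (S.card : ℝ) * S.card := by
      intro a ha
      rw [Finset.sum_congr rfl (fun s hs => hσ a ha s hs)]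
      simp only [Finset.sum_const, nsmul_eq_mul]
      calc ((S.card : ℝ) * σ) ^ 2 = S.card * S.card * (σ * σ) := by ring
        _ = _ := by rw [hσ2]; ring
    rw [Finset.sum_congr rfl this]
    simp
  rw [hA', htotal] at hpart
  have hSpos : (0 : ℝ) < S.card := by
    exact_mod_cast Finset.card_pos.mpr ⟨s0, hs0⟩
  have : (A.card : ℝ) * S.card ≤ n := by
    have h3 : ((A.card : ℝ) * S.card) * S.card ≤ n * S.card := by nlinarith
    exact le_of_mul_le_mul_right h3 hSpos
  exact_mod_cast this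

theorem run_bound (hh : IsCirculantHadamardRow n h) (j : ZMod n) (L : ℕ) (hL : L ≤ n)
    (hrun : ∀ i : ℕ, i < L → h (j + i) = h j) : L * (L + 2) ≤ 4 * n := by
  classical
  set m := (L + 1) / 2 with hm
  have hinj : ∀ k : ℕ, k ≤ n → Set.InjOn (fun i : ℕ => (i : ZMod n)) (Finset.range k : Set ℕ) := by
    intro k hk x hx y hy hxy
    simp only [Finset.coe_range, Set.mem_Iio] at hx hy
    have := (ZMod.natCast_eq_natCast_iff' x y n).mp hxy
    rwa [Nat.mod_eq_of_lt (by omega), Nat.mod_eq_of_lt (by omega)] at this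
  set A : Finset (ZMod n) := (Finset.range (L - m + 1)).image fun i : ℕ => j + (i : ZMod n) with hA
  set S : Finset (ZMod n) := (Finset.range m).image fun i : ℕ => (i : ZMod n) with hS
  rcases Nat.eq_zero_or_pos L with h0 | hpos
  · subst h0; simp
  have hmL : m ≤ L := by omega
  have hAc : A.card = L - m + 1 := by
    rw [hA, Finset.card_image_of_injOn, Finset.card_range]
    intro x hx y hy hxy
    exact hinj (L - m + 1) (by omega) hx hy (add_left_cancel hxy)
  have hSc : S.card = m := by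
    rw [hS, Finset.card_image_of_injOn (hinj m (by omega)), Finset.card_range]
  have hb := rectangle_bound hh A S (h j) (by
    intro a ha s hs
    simp only [hA, hS, Finset.mem_image, Finset.mem_range] at ha hs
    obtain ⟨i, hi, rfl⟩ := ha
    obtain ⟨i', hi', rfl⟩ := hs
    have := hrun (i + i') (by omega)
    rw [← this]; congr 1; push_cast; ring)
  rw [hAc, hSc] at hb
  have hkey : L * (L + 2) ≤ 4 * ((L - m + 1) * m) := by
    rcases Nat.even_or_odd' L with ⟨k, hk | hk⟩
    · have hmk : m = k := by omega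
      have : L - m + 1 = k + 1 := by omega
      rw [this, hmk, hk]; ring_nf; omega
    · have hmk : m = k + 1 := by omega
      have : L - m + 1 = k + 1 := by omega
      rw [this, hmk, hk]; ring_nf; omega
  omega

end Vale.Agent.P033
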