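import Mathlib

namespace Vale.Agent.P033

/-- `h` is the first row of a real circulant Hadamard matrix of order `n`: the matrix
`H i j = h (j - i)` (indices mod `n`) has entries `1` or `-1` and satisfies `H * Hᵀ = n • 1`. -/
def IsCirculantHadamardRow (n : ℕ) [NeZero n] (h : ZMod n → ℝ) : Prop :=
  (∀ j, h j = 1 ∨ h j = -1) ∧
    (Matrix.of fun i j : ZMod n => h (j - i)) * (Matrix.of fun i j : ZMod n => h (j - i)).transpose
      = (n : ℝ) • (1 : Matrix (ZMod n) (ZMod n) ℝ)

end Vale.Agent.P033
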